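import Vale.Agent.P014T.Pm.Rel
import Vale.Agent.P014U.Dr.Shp
import Vale.Agent.P014U.Nr.Cor

/-! # P014U, block PRIM: transport of group ring relations to the exact side -/

set_option linter.all false

open Matrix Finset NumberField

noncomputable section

namespace Vale.Agent.P014U.Pm

open Vale.Agent.P022 (Qb GQ)
open Vale.Agent.P004F (M2)
open Dr (Hm Ha Tv Hm_le Ha_le Hm_open Zn Co Ch Cd cj aa am lf cor cr nm ch_iff cj_lf)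
open Nr (sg Cl sg_cl cl_eq cl_sur sg_mul sg_fix tv_fr)

export Vale.Agent.P014T.Pm (Gz op op_of eu ev ev_of ev_eu op_int tv_one)

variable [Pp] {N M : ℕ} {ρ : GQ →* M2 (Zn N)} {A : Type} [CommRing A] {ι : Zn N →+* A} {Ψ : GQ →* A}
  {y y' : GQ → Fin 2 → Zn N} {H K K' : Subgroup GQ} {T T' : Finset GQ} {e e' : Gz}
  {z z' : GQ → Fin 2 → A} {k : GQ}

variable (ρ ι) in
/-- the twisted conjugate of a class -/
def tc (h : ∀ g ∈ Ha, Ψ g = 1) (s : GQ) : Cl ρ →+ (GQ → Fin 2 → A) ⧸ Dr.Bd Ha (am ρ ι Ψ) :=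
  QuotientAddGroup.lift _ ((((Dr.Bd Ha (am ρ ι Ψ)).mkQ ∘ₗ Dr.cl (am ρ ι Ψ) s).toAddMonoidHom).comp (lf ι))
    fun y hy => by
      have := ch_iff.1 (((cl_eq ρ (y := y) (y' := 0)).1 ((QuotientAddGroup.eq_zero_iff y).2 hy)).lfp
        (ι := ι) h |>.cj s)
      refine this.trans ?_
      rw [map_zero]
      exact (congrArg _ (map_zero (Dr.cl (am ρ ι Ψ) s))).trans (map_zero _)

theorem tc_cl (h : ∀ g ∈ Ha, Ψ g = 1) (s : GQ) (y) :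
    tc ρ ι h s (Nr.cl ρ y) = (Dr.Bd Ha (am ρ ι Ψ)).mkQ (Dr.cl (am ρ ι Ψ) s (lf ι y)) := rfl

theorem tc_sg (h : ∀ g ∈ Ha, Ψ g = 1) (s g : GQ) (x : Cl ρ) :
    tc ρ ι h s (sg ρ g x) = Ψ g⁻¹ • tc ρ ι h (s * g) x := by
  obtain ⟨y, rfl⟩ := cl_sur ρ x
  rw [sg_cl, tc_cl, tc_cl, ← map_smul]
  refine congrArg _ ?_
  change _ = _ • cj _ _ _
  rw [Dr.cj_mul, cj_lf g]
  change _ = _ • Dr.cl _ _ _
  rw [map_smul, smul_smul, ← map_mul, inv_mul_cancel, map_one, one_smul]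

theorem tc_op [H.Normal] [Fintype (GQ ⧸ H)] (h : ∀ g ∈ Ha, Ψ g = 1) (c : ∀ g ∈ H, Ψ g = 1) {x : Cl ρ}
    (f : ∀ g ∈ H, sg ρ g x = x) (e : Gz) :
    ∑ q : GQ ⧸ H, tc ρ ι h q.out (op (sg ρ) e x) = ev Ψ e • ∑ q : GQ ⧸ H, tc ρ ι h q.out x := by
  refine MonoidAlgebra.induction_on (motive := fun e => ∑ q : GQ ⧸ H, tc ρ ι h q.out (op (sg ρ) e x) =
    ev Ψ e • ∑ q : GQ ⧸ H, tc ρ ι h q.out x) e (fun g => ?_) (fun a b ha hb => ?_) fun r a ha => ?_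
  · rw [op_of, ev_of, Dr.sum_rep (F := fun s => tc ρ ι h s x) (fun s g m => by
      have := tc_sg (ι := ι) h s g x
      rw [f g m, c _ (inv_mem m), one_smul] at this
      exact this.symm) (Dr.bij_mul g), smul_sum]
    exact sum_congr rfl fun q _ => tc_sg ..
  · rw [map_add, map_add, add_smul, ← ha, ← hb, ← sum_add_distrib]
    exact sum_congr rfl fun q _ => map_add ..
  · rw [map_smul, map_smul, smul_assoc, ← ha, smul_sum]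
    exact sum_congr rfl fun q _ => map_zsmul ..

theorem tc_tr [H.Normal] [Fintype (GQ ⧸ H)] [K.Normal] (h : ∀ g ∈ Ha, Ψ g = 1) (c : ∀ g ∈ H, Ψ g = 1)
    (o : IsOpen (K : Set GQ)) (l : Ha ≤ K) (l' : K ≤ H) (co : Co K ρ y) (t : Tv H K T) (e : Gz) :
    ∑ q : GQ ⧸ H, tc ρ ι h q.out (op (sg ρ) e (∑ s ∈ T, sg ρ s (Nr.cl ρ y))) =
      (Dr.Bd Ha (am ρ ι Ψ)).mkQ (ev Ψ e • cor ρ ι Ψ K y) := by
  have := P022K.G2.cpt
  have := K.quotient_finite_of_isOpen o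
  have := Fintype.ofFinite (GQ ⧸ K)
  rw [tc_op h c (fun g m => by
    simp only [map_sum, ← sg_mul]
    exact (tv_fr ℤ t l').sum (p := fun s => sg ρ s (Nr.cl ρ y))
      (fun u _ k m => by rw [sg_mul, sg_fix co.coc l m]) m), map_smul]
  refine congrArg _ (Eq.trans (sum_congr rfl fun q _ => ?_)
    ((co.lfp (ι := ι) fun g m => c g (l' m)).mk_tr l l' t).symm)
  simp only [sg_cl, ← map_sum (Nr.cl ρ), tc_cl]
  rw [map_sum (lf ι)]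
  exact congrArg _ (congrArg _ (sum_congr rfl fun s m => by rw [cj_lf, c s (t.1 s m), one_smul]))

theorem cor_co [K.Normal] (o : IsOpen (K : Set GQ)) (c : ∀ g ∈ K, Ψ g = 1) (co : Co K ρ y) :
    Co ⊤ (am ρ ι Ψ) (cor ρ ι Ψ K y) :=
  have := P022K.G2.cpt
  have := K.quotient_finite_of_isOpen o
  have := Fintype.ofFinite (GQ ⧸ K)
  (co.lfp c).cr o

/-- a relation on the classes gives an identity of the normalised corestrictions -/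
theorem rel_nm [H.Normal] [K.Normal] [K'.Normal] (c : ∀ g ∈ H, Ψ g = 1) (o : IsOpen (K : Set GQ))
    (o' : IsOpen (K' : Set GQ)) (l : Ha ≤ K) (l' : Ha ≤ K') (n : K ≤ H) (n' : K' ≤ H) (co : Co K ρ y)
    (co' : Co K' ρ y') (t : Tv H K T) (t' : Tv H K' T')
    (r : op (sg ρ) e (∑ s ∈ T, sg ρ s (Nr.cl ρ y)) = op (sg ρ) e' (∑ s ∈ T', sg ρ s (Nr.cl ρ y')))
    (hk : k ∈ Ha) : ev Ψ e • nm (aa ρ ι Ψ) k (cor ρ ι Ψ K y) =
      ev Ψ e' • nm (aa ρ ι Ψ) k (cor ρ ι Ψ K' y') := by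
  have := P022K.G2.cpt
  have := H.quotient_finite_of_isOpen (Subgroup.isOpen_mono n o)
  have := Fintype.ofFinite (GQ ⧸ H)
  have h g (m : g ∈ Ha) := c g (n (l m))
  rw [← map_smul, ← map_smul]
  refine Dr.nm_eq (a := am ρ ι Ψ) hk
    (Submodule.smul_mem _ _ fun a b => (cor_co o (fun g m => c g (n m)) co).coc a trivial b trivial)
    (Submodule.smul_mem _ _ fun a b => (cor_co o' (fun g m => c g (n' m)) co').coc a trivial b trivial) ?_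
  rw [← tc_tr h c o l n co t, r, tc_tr h c o' l' n' co' t']

theorem nm_ch (h : Ψ k = 1) (u : GQ → Fin 2 → A) :
    Ch ⊤ (aa ρ ι Ψ) (nm (aa ρ ι Ψ) k u) (ι (ρ k - 1).det ^ 2 • u) := by
  have q : (aa ρ ι Ψ k - 1).det = ι (ρ k - 1).det := by
    rw [RingHom.map_det, map_sub, map_one, aa, h, one_smul]; rfl
  refine ⟨-(ι (ρ k - 1).det • ((aa ρ ι Ψ k - 1).adjugate *ᵥ u k)), fun g _ => ?_⟩
  simp only [nm, LinearMap.coe_mk, AddHom.coe_mk, q, Pi.smul_apply, mulVec_neg, mulVec_smul]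
  module

/-- **transport**: `z`, `z'` are the classes given by `SHP` -/
theorem rel [H.Normal] [K.Normal] [K'.Normal] (c : ∀ g ∈ H, Ψ g = 1) (o : IsOpen (K : Set GQ))
    (o' : IsOpen (K' : Set GQ)) (l : Ha ≤ K) (l' : Ha ≤ K') (n : K ≤ H) (n' : K' ≤ H) (co : Co K ρ y)
    (co' : Co K' ρ y') (t : Tv H K T) (t' : Tv H K' T')
    (r : op (sg ρ) e (∑ s ∈ T, sg ρ s (Nr.cl ρ y)) = op (sg ρ) e' (∑ s ∈ T', sg ρ s (Nr.cl ρ y')))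
    (hk : k ∈ Ha) (hz : Ch ⊤ (aa ρ ι Ψ) z (ι (ρ k - 1).det ^ 2 • cor ρ ι Ψ K y))
    (hz' : Ch ⊤ (aa ρ ι Ψ) z' (ι (ρ k - 1).det ^ 2 • cor ρ ι Ψ K' y')) :
    Ch ⊤ (aa ρ ι Ψ) (ev Ψ e • z) (ev Ψ e' • z') := by
  have h := c k (n (l hk))
  rw [ch_iff] at hz hz' ⊢
  rw [map_smul, map_smul, hz, hz', ← ch_iff.1 (nm_ch h _), ← ch_iff.1 (nm_ch h _)]
  exact (map_smul _ _ _).symm.trans
    ((congrArg _ (rel_nm c o o' l l' n n' co co' t t' r hk)).trans (map_smul _ _ _))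

/-- the same level on both sides -/
theorem rel1 (h0 : M ≠ 0) (c : Cd M Ψ) (co : Co (Hm M) ρ y) (co' : Co (Hm M) ρ y')
    (r : op (sg ρ) e (Nr.cl ρ y) = op (sg ρ) e' (Nr.cl ρ y'))
    (hk : k ∈ Ha) (hz : Ch ⊤ (aa ρ ι Ψ) z (ι (ρ k - 1).det ^ 2 • cor ρ ι Ψ (Hm M) y))
    (hz' : Ch ⊤ (aa ρ ι Ψ) z' (ι (ρ k - 1).det ^ 2 • cor ρ ι Ψ (Hm M) y')) :
    Ch ⊤ (aa ρ ι Ψ) (ev Ψ e • z) (ev Ψ e' • z') :=
  rel c (Hm_open h0) (Hm_open h0) (Ha_le h0) (Ha_le h0) le_rfl le_rfl co co' (tv_one _) (tv_one _)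
    (by simpa using r) hk hz hz'

/-- an integer on the left -/
theorem rel2 (h0 : M ≠ 0) (c : Cd M Ψ) (co : Co (Hm M) ρ y) (co' : Co (Hm M) ρ y') {t : ℤ}
    (r : t • Nr.cl ρ y = op (sg ρ) e' (Nr.cl ρ y'))
    (hk : k ∈ Ha) (hz : Ch ⊤ (aa ρ ι Ψ) z (ι (ρ k - 1).det ^ 2 • cor ρ ι Ψ (Hm M) y))
    (hz' : Ch ⊤ (aa ρ ι Ψ) z' (ι (ρ k - 1).det ^ 2 • cor ρ ι Ψ (Hm M) y')) :
    Ch ⊤ (aa ρ ι Ψ) ((t : A) • z) (ev Ψ e' • z') :=
  map_intCast (ev Ψ) t ▸ rel1 h0 c co co' ((op_int _ t _).trans r) hk hz hz'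

end Vale.Agent.P014U.Pm
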